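import Vale.Agent.P236TH.L10
import Vale.Agent.P236LB.R
import Vale.Agent.P236R.T275A
import Vale.Agent.P236R.HubC
import Vale.Agent.P236F.K272
import Vale.Agent.P236F.Fr
import Vale.Agent.P236EL.Fp
import Vale.Agent.P236KE.Y100.Ok

/-!
# P236TP / Top : the final statement from five groups of facts about the cohomology
-/

namespace Vale.Agent.P236TP

open Vale.Agent.P251.F Vale.Agent.P251.I Vale.Agent.P236SY Vale.Agent.P236F Vale.Agent.P236R
  Vale.Agent.P236EL Vale.Agent.P236TH Vale.Agent.P236LB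

theorem vh {t : Cob Laz 1} (ht : IsT1 3 t) : VH t :=
  haveI : Fact (Nat.Prime 3) := ⟨Nat.prime_three⟩
  fun _ _ h => P236KE.Y100.vy ht h

/-- The final statement from facts about the cohomology. -/
theorem full_of_facts (h10 : ∀ t, IsT1 3 t → F10 t) (hK : ∀ t, IsT1 3 t → KF t)
    (hL : ∀ t, IsT1 3 t → LF t) (hG : ∀ t, IsT1 3 t → G228 t)
    (hR : ∀ t, IsT1 3 t → RF t) : P236K.FULL :=
  haveI : Fact (Nat.Prime 3) := ⟨Nat.prime_three⟩
  full_of_l14 ea (fun t ht => ⟨fr ht, vh ht, f330 ht, h10 t ht⟩) fun _ _ t ht P =>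
    P.l14 ht (hK t ht) ea (fr ht) (fx ht) (f330 ht) (hL t ht)
      (P.kz ht (hK t ht) (P.t299 ht ea (fr ht) (vh ht) (hf ht))
        (P.t289 ht ea (fr ht) (vh ht) (hf ht))
        (P.t275 ht ea (fr ht) (vh ht) (hf ht) (tf_of ht (hG t ht))))
      (r3 P ht ea (fx ht) (fr ht) (vh ht) (hR t ht) (hf ht))

end Vale.Agent.P236TP
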